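import Mathlib

set_option autoImplicit false

/-!
# FLAT (L3)(i): symmetrisation of a highest weight word function over many positions vanishes
-/

namespace Vale.Agent.P181.FLAT.H858

open Finset

/-- A word function with at most `M` letters `0` in every word of its support, killed by the
operators `e_j ↦ e_0`, is killed by the symmetrisation over any `M + 1` positions. -/
theorem symP {D n M : ℕ} (x : (Fin D → Fin (n + 1)) → ℂ)
    (h1 : ∀ w, x w ≠ 0 → (Finset.univ.filter (fun p => w p = 0)).card ≤ M)
    (hE : ∀ j : Fin (n + 1), j ≠ 0 → ∀ w,
      ∑ p ∈ Finset.univ.filter (fun p => w p = 0), x (Function.update w p j) = 0)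
    (P : Finset (Fin D)) (hP : P.card = M + 1) (w : Fin D → Fin (n + 1)) :
    ∑ σ : Equiv.Perm {i // i ∈ P}, x (w ∘ Equiv.Perm.ofSubtype σ) = 0 := by
  classical
  obtain ⟨y, hy⟩ : ∃ y : (Fin D → Fin (n + 1)) → ℂ, ∀ w, y w =
      ∑ σ : Equiv.Perm {i // i ∈ P}, x (w ∘ Equiv.Perm.ofSubtype σ) := ⟨_, fun _ => rfl⟩
  rw [← hy]
  have hsym : ∀ (τ : Equiv.Perm {i // i ∈ P}) (w : Fin D → Fin (n + 1)),
      y (w ∘ Equiv.Perm.ofSubtype τ) = y w := by
    intro τ w
    rw [hy, hy, ← Equiv.sum_comp (Equiv.mulLeft τ)
      (fun σ => x (w ∘ ⇑(Equiv.Perm.ofSubtype σ)))]
    apply Finset.sum_congr rfl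
    intro σ _
    congr 1
    funext i
    simp [Function.comp, map_mul, Equiv.Perm.mul_apply]
  have hswap : ∀ p ∈ P, ∀ q ∈ P, ∀ w : Fin D → Fin (n + 1),
      y (w ∘ Equiv.swap p q) = y w := by
    intro p hp q hq w
    have h := hsym (Equiv.swap ⟨p, hp⟩ ⟨q, hq⟩) w
    rwa [Equiv.Perm.ofSubtype_swap_eq] at h
  have hyE : ∀ j : Fin (n + 1), j ≠ 0 → ∀ w : Fin D → Fin (n + 1),
      ∑ p ∈ Finset.univ.filter (fun p => w p = 0), y (Function.update w p j) = 0 := by
    intro j hj w
    simp only [hy]
    rw [Finset.sum_comm]
    apply Finset.sum_eq_zero
    intro σ _
    rw [← hE j hj (w ∘ Equiv.Perm.ofSubtype σ)]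
    apply Finset.sum_bij' (fun p _ => (Equiv.Perm.ofSubtype σ).symm p)
      (fun p _ => (Equiv.Perm.ofSubtype σ) p)
    · intro p hp
      simpa using hp
    · intro p hp
      simpa using hp
    · intro p _
      simp
    · intro p _
      simp
    · intro p _
      congr 1
      funext i
      by_cases hi : i = (Equiv.Perm.ofSubtype σ).symm p
      · subst hi
        simp
      · have hi' : (Equiv.Perm.ofSubtype σ) i ≠ p := by
          intro h
          apply hi
          rw [← h, Equiv.symm_apply_apply]
        simp [Function.update_of_ne hi, Function.update_of_ne hi']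
  have hy1 : ∀ w : Fin D → Fin (n + 1), y w ≠ 0 →
      (Finset.univ.filter (fun p => w p = 0)).card ≤ M := by
    intro w hw
    rw [hy] at hw
    obtain ⟨σ, -, hσ⟩ := Finset.exists_ne_zero_of_sum_ne_zero hw
    refine le_trans (le_of_eq ?_) (h1 _ hσ)
    apply Finset.card_bij' (fun p _ => (Equiv.Perm.ofSubtype σ).symm p)
      (fun p _ => (Equiv.Perm.ofSubtype σ) p)
    · intro p hp
      simpa using hp
    · intro p hp
      simpa using hp
    · intro p _
      simp
    · intro p _
      simp
  have key : ∀ k : ℕ, ∀ w : Fin D → Fin (n + 1),
      (P.filter (fun p => w p ≠ 0)).card = k → y w = 0 := by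
    intro k
    induction k using Nat.strong_induction_on with
    | _ k ih =>
      intro w hk
      rcases Nat.eq_zero_or_pos k with h0 | h0
      · by_contra hne
        have h2 := hy1 w hne
        have h3 : P ⊆ Finset.univ.filter (fun p => w p = 0) := by
          intro p hp
          rw [h0, Finset.card_eq_zero] at hk
          simp only [Finset.mem_filter, Finset.mem_univ, true_and]
          by_contra h4
          have : p ∈ P.filter (fun p => w p ≠ 0) := Finset.mem_filter.mpr ⟨hp, h4⟩
          rw [hk] at this
          exact absurd this (Finset.notMem_empty p)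
        have h4 := Finset.card_le_card h3
        omega
      · rw [← hk] at h0
        obtain ⟨p0, hp0⟩ := Finset.card_pos.mp h0
        obtain ⟨hp0P, hp0w⟩ := Finset.mem_filter.mp hp0
        have h5 := hyE (w p0) hp0w (Function.update w p0 0)
        -- split according to membership in P
        rw [← Finset.sum_filter_add_sum_filter_not _ (fun p => p ∈ P)] at h5
        have h6 : ∀ p ∈ (Finset.univ.filter (fun p => Function.update w p0 0 p = 0)).filter
            (fun p => ¬ p ∈ P), y (Function.update (Function.update w p0 0) p (w p0)) = 0 := by
          intro p hp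
          rw [Finset.mem_filter] at hp
          apply ih (P.filter (fun q => Function.update (Function.update w p0 0) p (w p0) q ≠ 0)).card
            _ _ rfl
          rw [← hk]
          apply Finset.card_lt_card
          rw [Finset.ssubset_iff_of_subset]
          · refine ⟨p0, hp0, ?_⟩
            rw [Finset.mem_filter]
            rintro ⟨-, h⟩
            apply h
            rw [Function.update_of_ne, Function.update_self]
            rintro rfl
            exact hp.2 hp0P
          · intro q hq
            rw [Finset.mem_filter] at hq ⊢
            refine ⟨hq.1, ?_⟩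
            have hqp : q ≠ p := by
              rintro rfl
              exact hp.2 hq.1
            have h7 := hq.2
            rw [Function.update_of_ne hqp] at h7
            by_cases hq0 : q = p0
            · rw [hq0]; exact hp0w
            · rwa [Function.update_of_ne hq0] at h7
        rw [Finset.sum_eq_zero h6, add_zero] at h5
        have h8 : ∀ p ∈ (Finset.univ.filter (fun p => Function.update w p0 0 p = 0)).filter
            (fun p => p ∈ P), y (Function.update (Function.update w p0 0) p (w p0)) = y w := by
          intro p hp
          rw [Finset.mem_filter, Finset.mem_filter] at hp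
          by_cases hpp : p = p0
          · subst hpp
            rw [Function.update_idem, Function.update_eq_self]
          · have h9 : w p = 0 := by
              have := hp.1.2
              rwa [Function.update_of_ne hpp] at this
            rw [← hswap p0 hp0P p hp.2 w]
            congr 1
            funext i
            by_cases hi : i = p
            · subst hi
              simp
            · rw [Function.update_of_ne hi]
              by_cases hi0 : i = p0
              · subst hi0
                simp [h9]
              · rw [Function.update_of_ne hi0]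
                simp [Equiv.swap_apply_of_ne_of_ne hi0 hi]
        rw [Finset.sum_congr rfl h8, Finset.sum_const, nsmul_eq_mul] at h5
        rcases mul_eq_zero.mp h5 with h10 | h10
        · exfalso
          rw [Nat.cast_eq_zero, Finset.card_eq_zero] at h10
          have : p0 ∈ (Finset.univ.filter (fun p => Function.update w p0 0 p = 0)).filter
            (fun p => p ∈ P) := by simp [hp0P]
          rw [h10] at this
          exact absurd this (Finset.notMem_empty p0)
        · exact h10
  exact key _ w rfl

end Vale.Agent.P181.FLAT.H858
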