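import Vale.Agent.P181.H280.Main
import Vale.Agent.P181.FLAT.H858.SymP

set_option autoImplicit false

/-!
# FLAT (L3)(i), glue: from highest weight vectors of `Sym^a(Sym^b ℂ^n)` to word functions
-/

open scoped TensorProduct

namespace Vale.Agent.P181.FLAT.H858

open Vale.Agent.P181 Vale.Agent.P181.H280 MvPolynomial

variable {n a b : ℕ}

/-- The word function of a combination of arrays. -/
noncomputable def wf (l : (Fin a → Fin b → (Fin n → ℂ)) →₀ ℂ) (w : Fin a × Fin b → Fin n) : ℂ :=
  formOf l (fun i => ∏ j, (X (w (i, j)) : MvPolynomial (Fin n) ℂ))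

lemma wf_eq_rowProd (l : (Fin a → Fin b → (Fin n → ℂ)) →₀ ℂ) (w : Fin a × Fin b → Fin n) :
    wf l w = rowProd b (formOf l) (fun p => (X (w p) : MvPolynomial (Fin n) ℂ)) := rfl

lemma wf_act (lam : Fin n → ℕ) (l : (Fin a → Fin b → (Fin n → ℂ)) →₀ ℂ)
    (hx : elOf l ∈ hwSpace lam (plethAct a b n)) (g : Matrix (Fin n) (Fin n) ℂ) (hg : IsBorel g)
    (w : Fin a × Fin b → Fin n) (p : Fin a × Fin b → MvPolynomial (Fin n) ℂ)
    (hp : ∀ i, evL n (p i) = fun v => (Matrix.toLin' g v) (w i)) :
    rowProd b (formOf l) p = (∏ i, g i i ^ lam i) * wf l w := by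
  have h1 := formOf_lin l (fun i j => p (i, j)) (fun i j => (LinearMap.proj (w (i, j))) ∘ₗ Matrix.toLin' g)
    (fun i j => hp (i, j))
  rw [rowProd_apply, h1,
    ← symEval_act (Matrix.toLin' g) (fun i j => LinearMap.proj (w (i, j))) (elOf l)]
  have h2 : symMap a (symMap b (Matrix.toLin' g)) (elOf l) =
      (∏ i, g i i ^ lam i) • elOf l := hx g hg
  rw [h2, map_smul, smul_eq_mul]
  congr 1
  exact (formOf_lin l (fun i j => X (w (i, j))) (fun i j => LinearMap.proj (w (i, j)))
    (fun i j => evL_X _)).symm

/-- In every word of the support the letter `k` occurs `lam k` times. -/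
theorem wf_weight (lam : Fin n → ℕ) (l : (Fin a → Fin b → (Fin n → ℂ)) →₀ ℂ)
    (hx : elOf l ∈ hwSpace lam (plethAct a b n)) (w : Fin a × Fin b → Fin n) (hw : wf l w ≠ 0)
    (k : Fin n) : (Finset.univ.filter (fun p => w p = k)).card = lam k := by
  classical
  have h3 := wf_act lam l hx (Matrix.diagonal (Function.update 1 k 2)) (by
      constructor
      · intro i j hij
        exact Matrix.diagonal_apply_ne _ hij.ne'
      · intro i
        rw [Matrix.diagonal_apply_eq]
        by_cases hi : i = k
        · rw [hi, Function.update_self]; norm_num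
        · rw [Function.update_of_ne hi]; norm_num) w
    (fun p => (Function.update (1 : Fin n → ℂ) k 2 (w p)) • X (w p)) (by
      intro p
      rw [map_smul, evL_X]
      funext v
      rw [Matrix.toLin'_apply, Matrix.mulVec_diagonal]
      rfl)
  have h4 := MultilinearMap.map_smul_univ (rowProd b (formOf l))
    (fun p : Fin a × Fin b => Function.update (1 : Fin n → ℂ) k 2 (w p))
    (fun p => (X (w p) : MvPolynomial (Fin n) ℂ))
  rw [h4, ← wf_eq_rowProd, smul_eq_mul] at h3
  have h6 := mul_right_cancel₀ hw h3
  have h7 : ∏ p : Fin a × Fin b, Function.update (1 : Fin n → ℂ) k 2 (w p) =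
      2 ^ (Finset.univ.filter (fun p : Fin a × Fin b => w p = k)).card := by
    rw [← Finset.prod_const, Finset.prod_filter]
    apply Finset.prod_congr rfl
    intro p _
    by_cases hp : w p = k
    · rw [hp, Function.update_self, if_pos rfl]
    · rw [Function.update_of_ne hp, if_neg hp]
      rfl
  have h8 : ∏ i, (Matrix.diagonal (Function.update (1 : Fin n → ℂ) k 2)) i i ^ lam i =
      2 ^ lam k := by
    rw [Finset.prod_eq_single k]
    · rw [Matrix.diagonal_apply_eq, Function.update_self]
    · intro i _ hi
      rw [Matrix.diagonal_apply_eq, Function.update_of_ne hi]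
      simp
    · intro hh
      exact absurd (Finset.mem_univ _) hh
  rw [h7, h8] at h6
  have h10 : (2 : ℕ) ^ (Finset.univ.filter
      (fun p : Fin a × Fin b => w p = k)).card = 2 ^ lam k := by
    exact_mod_cast h6
  exact Nat.pow_right_injective le_rfl h10

/-- Replacing in all possible ways one letter `k` by a larger letter `j` gives zero. -/
theorem wf_low (lam : Fin n → ℕ) (l : (Fin a → Fin b → (Fin n → ℂ)) →₀ ℂ)
    (hx : elOf l ∈ hwSpace lam (plethAct a b n)) (w : Fin a × Fin b → Fin n) (k j : Fin n)
    (hkj : k < j) :
    ∑ p ∈ Finset.univ.filter (fun p => w p = k), wf l (Function.update w p j) = 0 := by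
  classical
  have h0 : ∀ t : ℂ, rowProd b (formOf l) (fun p => (X (w p) : MvPolynomial (Fin n) ℂ) +
      t • (if w p = k then (X j : MvPolynomial (Fin n) ℂ) else 0)) = wf l w := by
    intro t
    have h3 := wf_act lam l hx (Matrix.transvection k j t) (by
        constructor
        · intro i i' hij
          rw [Matrix.transvection, Matrix.add_apply, Matrix.one_apply_ne hij.ne',
            Matrix.single_apply_of_ne, add_zero]
          rintro ⟨rfl, rfl⟩
          exact absurd hij (not_lt.2 hkj.le)
        · intro i
          rw [Matrix.transvection, Matrix.add_apply, Matrix.one_apply_eq,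
            Matrix.single_apply_of_ne, add_zero]
          · exact one_ne_zero
          · rintro ⟨rfl, h5⟩
            exact hkj.ne h5.symm) w
      (fun p => (X (w p) : MvPolynomial (Fin n) ℂ) +
        t • (if w p = k then (X j : MvPolynomial (Fin n) ℂ) else 0)) (by
        intro p
        rw [map_add, map_smul, evL_X]
        funext v
        rw [Matrix.toLin'_apply, Matrix.transvection, Matrix.add_mulVec, Matrix.one_mulVec]
        rw [Pi.add_apply, Pi.add_apply, Pi.smul_apply]
        congr 1
        by_cases hp : w p = k
        · rw [if_pos hp, evL_X, hp]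
          simp [Matrix.mulVec, dotProduct, Matrix.single_apply]
        · rw [if_neg hp, map_zero]
          simp [Matrix.mulVec, dotProduct, Ne.symm hp])
    rw [h3]
    have h8 : ∏ i, (Matrix.transvection k j t) i i ^ lam i = 1 := by
      apply Finset.prod_eq_one
      intro i _
      rw [Matrix.transvection, Matrix.add_apply, Matrix.one_apply_eq,
        Matrix.single_apply_of_ne, add_zero, one_pow]
      rintro ⟨rfl, h5⟩
      exact hkj.ne h5.symm
    rw [h8, one_mul]
  have h1 := first_order' (rowProd b (formOf l)) (fun p => (X (w p) : MvPolynomial (Fin n) ℂ))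
    (fun p => if w p = k then (X j : MvPolynomial (Fin n) ℂ) else 0) (wf l w) h0
  rw [← h1, Finset.sum_filter]
  apply Finset.sum_congr rfl
  intro p _
  by_cases hp : w p = k
  · rw [if_pos hp, if_pos hp, wf_eq_rowProd]
    congr 1
    funext i
    by_cases hi : i = p
    · rw [hi, Function.update_self, Function.update_self]
    · rw [Function.update_of_ne hi, Function.update_of_ne hi]
  · rw [if_neg hp, if_neg hp]
    exact (MultilinearMap.map_update_zero _ _ _).symm

/-- The word function determines the element. -/
theorem wf_inj (l : (Fin a → Fin b → (Fin n → ℂ)) →₀ ℂ) (h : ∀ w, wf l w = 0) : elOf l = 0 := by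
  apply elOf_eq_zero
  intro P hP
  apply multilinear_zero_of_span (formOf l)
    (Set.range (fun c : Fin b → Fin n => ∏ j, (X (c j) : MvPolynomial (Fin n) ℂ)))
  · intro w hw
    choose c hc using hw
    rw [← h (fun p => c p.1 p.2), wf]
    congr 1
    funext i
    exact (hc i).symm
  · intro i
    exact span_pow_eq _ _ (hP i)

/-- Highest weight vectors whose weights are at most `M` are killed by the symmetrisation over
any `M + 1` positions. -/
theorem wf_symP {D M : ℕ} (e : Fin a × Fin b ≃ Fin D) (lam : Fin n → ℕ) (hlam : ∀ i, lam i ≤ M)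
    (l : (Fin a → Fin b → (Fin n → ℂ)) →₀ ℂ) (hx : elOf l ∈ hwSpace lam (plethAct a b n))
    (P : Finset (Fin D)) (hP : P.card = M + 1) (w : Fin D → Fin n) :
    ∑ σ : Equiv.Perm {i // i ∈ P},
      wf l (fun p => (w ∘ Equiv.Perm.ofSubtype σ) (e p)) = 0 := by
  classical
  rcases Nat.eq_zero_or_pos n with h0 | h0
  · -- no letters, so no positions
    exfalso
    subst h0
    have h1 : 0 < P.card := by omega
    obtain ⟨p, _⟩ := Finset.card_pos.1 h1
    exact (w p).elim0
  · obtain ⟨n, rfl⟩ : ∃ n', n = n' + 1 := ⟨n - 1, by omega⟩
    apply symP (M := M) (fun w : Fin D → Fin (n + 1) => wf l (fun p => w (e p))) _ _ P hP w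
    · intro w hw
      refine le_trans (le_of_eq ?_) (hlam 0)
      rw [← wf_weight lam l hx _ hw 0]
      apply Finset.card_bij' (fun p _ => e.symm p) (fun p _ => e p)
      · intro p hp
        simpa using hp
      · intro p hp
        simpa using hp
      · intro p _
        simp
      · intro p _
        simp
    · intro j hj w
      have h1 := wf_low lam l hx (fun p => w (e p)) 0 j (Fin.pos_of_ne_zero hj)
      rw [← h1]
      apply Finset.sum_bij' (fun p _ => e.symm p) (fun p _ => e p)
      · intro p hp
        simpa using hp
      · intro p hp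
        simpa using hp
      · intro p _
        simp
      · intro p _
        simp
      · intro p _
        congr 1
        funext i
        by_cases hi : i = e.symm p
        · rw [hi, Function.update_self, Equiv.apply_symm_apply, Function.update_self]
        · rw [Function.update_of_ne hi, Function.update_of_ne]
          intro h
          apply hi
          rw [← h, Equiv.symm_apply_apply]

end Vale.Agent.P181.FLAT.H858
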