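import Vale.Agent.P181.H867.PowG
import Vale.Agent.P181.FLAT.H487.Words
import Vale.Agent.P181.FLAT.H858.Glue

set_option autoImplicit false

/-!
# FLAT: assembly modulo the bridge
-/

open scoped TensorProduct

namespace Vale.Agent.P181.FLAT.H858

open Vale.Agent.P181 Vale.Agent.P181.H280 Vale.Agent.P181.H867 MvPolynomial

variable {n : ℕ}

/-- Permutation of the slots. -/
theorem wf_slot {a b : ℕ} (l : (Fin a → Fin b → (Fin n → ℂ)) →₀ ℂ) (π : Equiv.Perm (Fin a))
    (w : Fin a × Fin b → Fin n) : wf l (fun p => w (π p.1, p.2)) = wf l w :=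
  formOf_symm l π (fun i => ∏ j, (X (w (i, j)) : MvPolynomial (Fin n) ℂ))

/-- Permutations inside the slots. -/
theorem wf_in {a b : ℕ} (l : (Fin a → Fin b → (Fin n → ℂ)) →₀ ℂ)
    (ρ : Fin a → Equiv.Perm (Fin b)) (w : Fin a × Fin b → Fin n) :
    wf l (fun p => w (p.1, ρ p.1 p.2)) = wf l w := by
  rw [wf, wf]
  congr 1
  funext i
  exact Equiv.prod_comp (ρ i) (fun j => (X (w (i, j)) : MvPolynomial (Fin n) ℂ))

/-- The position `p` after the permutation `τ` of the blocks. -/
def blkFun {d q c : ℕ} (τ : Equiv.Perm (Fin d × Fin q)) (p : Fin d × Fin (q * c)) :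
    Fin d × Fin (q * c) :=
  ((τ (p.1, (finProdFinEquiv.symm p.2).1)).1,
    finProdFinEquiv ((τ (p.1, (finProdFinEquiv.symm p.2).1)).2, (finProdFinEquiv.symm p.2).2))

/-- The power relation on words. -/
theorem wf_pow {d q c : ℕ} (l : (Fin d → Fin (q * c) → (Fin n → ℂ)) →₀ ℂ)
    (h : ∀ G ∈ linS n ^ c, formOf l (fun _ => G ^ q) = 0) (w : Fin d × Fin (q * c) → Fin n) :
    ∑ τ : Equiv.Perm (Fin d × Fin q), wf l (fun p => w (blkFun τ p)) = 0 := by
  classical
  have h1 := polar (rowProd q (formOf l)) (linS n ^ c) (by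
    intro G hG
    rw [rowProd_apply]
    simp only [Finset.prod_const, Finset.card_univ, Fintype.card_fin]
    exact h G hG) (fun p => ∏ s : Fin c, (X (w (p.1, finProdFinEquiv (p.2, s))) :
      MvPolynomial (Fin n) ℂ)) (by
    intro p
    exact prod_mem_pow _ _ (fun s => X_mem_linS _))
  rw [← h1]
  apply Finset.sum_congr rfl
  intro τ _
  rw [rowProd_apply, wf]
  congr 1
  funext i
  rw [← Equiv.prod_comp finProdFinEquiv, Fintype.prod_prod_type]
  apply Finset.prod_congr rfl
  intro r _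
  apply Finset.prod_congr rfl
  intro s _
  simp only [blkFun, Equiv.symm_apply_apply]

/-- **(BR)** the bridge. -/
def BRStmt : Prop :=
  ∀ (d q c n : ℕ) (x : (Fin d × Fin (q * c) → Fin n) → ℂ), Even c → 1 ≤ q →
    (∀ (π : Equiv.Perm (Fin d)) (w : Fin d × Fin (q * c) → Fin n),
      x (fun p => w (π p.1, p.2)) = x w) →
    (∀ (ρ : Fin d → Equiv.Perm (Fin (q * c))) (w : Fin d × Fin (q * c) → Fin n),
      x (fun p => w (p.1, ρ p.1 p.2)) = x w) →
    (∀ w : Fin d × Fin (q * c) → Fin n, ∑ τ : Equiv.Perm (Fin d × Fin q), x (fun p => w (blkFun τ p)) = 0) →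
    ∀ (D : ℕ) (e : Fin d × Fin (q * c) ≃ Fin D) (κ : Fin D → Fin ((q + 1) * c))
      (w : Fin D → Fin n), ∑ σ : {σ : Equiv.Perm (Fin D) // κ ∘ σ = κ},
        (Equiv.Perm.sign σ.1 : ℂ) * x (fun p => (w ∘ σ.1) (e p)) = 0

theorem formsVanish_of (hBR : BRStmt) {d q c n : ℕ} (hc : Even c) (hq : 1 ≤ q) (lam : Fin n → ℕ)
    (hlam : ∀ i, lam i ≤ (q + 1) * c) : FormsVanishG d q c n lam := by
  intro l hx h P hP
  have h1 : elOf l = 0 := by
    apply wf_inj
    set e : Fin d × Fin (q * c) ≃ Fin (d * (q * c)) := finProdFinEquiv with he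
    have h2 := H487.words (M := (q + 1) * c) (fun w : Fin (d * (q * c)) → Fin n =>
      wf l (fun p => w (e p))) (fun P hP w => wf_symP e lam hlam l hx P hP w)
      (fun κ w => hBR d q c n (wf l) hc hq (fun π w => wf_slot l π w) (fun ρ w => wf_in l ρ w)
        (fun w => wf_pow l h w) _ e κ w)
    intro w
    have h3 := congrFun h2 (fun p => w (e.symm p))
    simpa using h3
  have h2 : ∀ (p : Fin d → Fin (q * c) → MvPolynomial (Fin n) ℂ)
      (ξ : Fin d → Fin (q * c) → Module.Dual ℂ (Fin n → ℂ)),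
      (∀ i j, evL n (p i j) = fun v => ξ i j v) → formOf l (fun i => ∏ j, p i j) = 0 := by
    intro p ξ hp
    rw [formOf_lin l p ξ hp, h1, map_zero]
  apply multilinear_zero_of_span (formOf l)
    (Set.range (fun c : Fin (q * c) → Fin n => ∏ j, (X (c j) : MvPolynomial (Fin n) ℂ)))
  · intro w hw
    choose v hv using hw
    have h3 : w = fun i => ∏ j, (X (v i j) : MvPolynomial (Fin n) ℂ) := by
      funext i
      exact (hv i).symm
    rw [h3]
    exact h2 (fun i j => X (v i j)) (fun i j => LinearMap.proj (v i j)) (fun i j => evL_X _)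
  · intro i
    exact span_pow_eq _ _ (hP i)

/-- Flat shapes, modulo the bridge: `c` even, `lam i ≤ (q + 1) c`. -/
theorem flat_of (hBR : BRStmt) (d q c n : ℕ) (hc : Even c) (hq : 1 ≤ q) (lam : Fin n → ℕ)
    (hlam : ∀ i, lam i ≤ (q + 1) * c) :
    plethMult d (q * c) n lam ≤ plethMult (q * d) c n lam :=
  plethMultG_le_of d q c n lam (formsVanish_of hBR hc hq lam hlam)

end Vale.Agent.P181.FLAT.H858
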